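import Vale.Agent.P220.R2.H562.S.Half

/-!
# The complex Stiefel base
-/

open Set Filter Topology
open scoped ContDiff

set_option linter.unusedSectionVars false

namespace Vale.Agent.P220.R2.H562.C

open H57 H180 H562 H562.S

variable {V : Type} [NormedAddCommGroup V] [InnerProductSpace ℝ V] [FiniteDimensional ℝ V]

/-- the unit vectors `(x, y)` of `V ⊕ V` with `y` orthogonal to the complex line of `x` -/
def QJ {V : Type} [NormedAddCommGroup V] [InnerProductSpace ℝ V] (J : V ≃ₗᵢ[ℝ] V) :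
    Set (WithLp 2 (V × V)) :=
  {x | ‖x.fst‖ ^ 2 + ‖x.snd‖ ^ 2 = 1 ∧ inner ℝ x.fst x.snd = (0 : ℝ) ∧
    inner ℝ x.fst (J x.snd) = (0 : ℝ)}

section

variable {J : V ≃ₗᵢ[ℝ] V} (hJ : ∀ x, J (J x) = -x)

include hJ

theorem J_skew (x y : V) : (inner ℝ (J x) y : ℝ) = -inner ℝ x (J y) := by
  have h1 := J.inner_map_map x (J y)
  rw [hJ, inner_neg_right] at h1
  linarith

theorem J_self (x : V) : (inner ℝ x (J x) : ℝ) = 0 := by
  have h1 := J_skew hJ x x
  rw [real_inner_comm] at h1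
  linarith

theorem J_orth {u : V} (hu : ‖u‖ = 1) : Orth u (J u) :=
  ⟨hu, (J.norm_map u).trans hu, J_self hJ u⟩

theorem J_Pl {u x : V} (hx : x ∈ Pl u (J u)) : J x ∈ Pl u (J u) := by
  obtain ⟨a, b, rfl⟩ := Submodule.mem_span_pair.1 hx
  rw [map_add, map_smul, map_smul, hJ]
  exact Submodule.mem_span_pair.2 ⟨-b, a, by module⟩

theorem J_Pl_orth {u x : V} (hx : x ∈ (Pl u (J u))ᗮ) : J x ∈ (Pl u (J u))ᗮ := by
  rw [Submodule.mem_orthogonal'] at hx ⊢
  intro y hy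
  rw [J_skew hJ, hx _ (J_Pl hJ hy), neg_zero]

theorem refl_J {u : V} (hu : ‖u‖ = 1) (x : V) :
    (Pl u (J u)).reflection (J x) = J ((Pl u (J u)).reflection x) := by
  have ho := J_orth hJ hu
  rw [refl_Pl ho, refl_Pl ho, Refl_apply ho.w1, Refl_apply ho.w1]
  have h1 : (inner ℝ u (J x) : ℝ) = -inner ℝ (J u) x := by
    rw [J_skew hJ, neg_neg]
  have h2 : (inner ℝ (J u) (J x) : ℝ) = inner ℝ u x := J.inner_map_map u x
  simp only [map_sub, map_smul, map_neg, Refl_apply ho.v1, inner_sub_right, inner_smul_right, h1,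
    h2, hJ, ho.vw, ho.vv]
  module

end

/-- the projection to the second summand -/
noncomputable def PB : DD V →L[ℝ] DD V :=
  LinearMap.toContinuousLinearMap
    { toFun := fun x => mk 0 x.snd
      map_add' := fun x y => by
        refine ext_DD ?_ ?_
        · simp only [WithLp.add_fst, mk_fst, add_zero]
        · simp only [WithLp.add_snd, mk_snd]
      map_smul' := fun c x => by
        refine ext_DD ?_ ?_
        · simp only [WithLp.smul_fst, mk_fst, smul_zero]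
        · simp only [WithLp.smul_snd, mk_snd, RingHom.id_apply] }

theorem PB_fst (x : DD V) : (PB x).fst = 0 := rfl
theorem PB_snd (x : DD V) : (PB x).snd = x.snd := rfl

theorem isPr_PB : IsPr (PB (V := V)) := by
  refine ⟨fun x => ?_, fun x y => ?_⟩
  · refine ext_DD ?_ ?_
    · rw [PB_fst, PB_fst]
    · rw [PB_snd]
  · rw [inner_DD, inner_DD, PB_fst, PB_snd, PB_fst, PB_snd, inner_zero_left, inner_zero_right]

theorem PB_dg (g : V ≃ₗᵢ[ℝ] V) (x : DD V) : PB (dg g x) = dg g (PB x) := by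
  refine ext_DD ?_ ?_
  · rw [PB_fst, dg_fst, PB_fst, map_zero]
  · rw [PB_snd, dg_snd, dg_snd, PB_snd]

/-- admissible pairs -/
structure Ad (J : V ≃ₗᵢ[ℝ] V) (e u : V) : Prop where
  o : Orth e u
  j : inner ℝ e (J u) = (0 : ℝ)

theorem Ad.mk' {J : V ≃ₗᵢ[ℝ] V} {e u : V} (he : ‖e‖ = 1) (hu : ‖u‖ = 1)
    (h : inner ℝ e u = (0 : ℝ)) (h' : inner ℝ e (J u) = (0 : ℝ)) : Ad J e u := ⟨⟨he, hu, h⟩, h'⟩

theorem ad_adm {J : V ≃ₗᵢ[ℝ] V} {e u : V} (h : Ad J e u) : Adm PB (QJ J) (mk e 0) (mk 0 u) := by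
  refine ⟨?_, ?_, ?_, ?_, ?_⟩
  · rw [← sq_eq_sq₀ (norm_nonneg _) zero_le_one, norm_DD, mk_fst, mk_snd, h.o.v1, norm_zero]
    norm_num
  · refine ext_DD ?_ ?_
    · rw [PB_fst]; rfl
    · rw [PB_snd, mk_snd]; rfl
  · rw [← sq_eq_sq₀ (norm_nonneg _) zero_le_one, norm_DD, mk_fst, mk_snd, h.o.w1, norm_zero]
    norm_num
  · refine ext_DD ?_ ?_
    · rw [PB_fst, mk_fst]
    · rw [PB_snd]
  · intro a b hab
    have e1 : (a • mk e 0 + b • mk 0 u : DD V).fst = a • e := by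
      rw [WithLp.add_fst, WithLp.smul_fst, WithLp.smul_fst, mk_fst, mk_fst, smul_zero, add_zero]
    have e2 : (a • mk e 0 + b • mk 0 u : DD V).snd = b • u := by
      rw [WithLp.add_snd, WithLp.smul_snd, WithLp.smul_snd, mk_snd, mk_snd, smul_zero, zero_add]
    refine ⟨?_, ?_, ?_⟩
    · rw [e1, e2, norm_smul, norm_smul, h.o.v1, h.o.w1, mul_one, mul_one, Real.norm_eq_abs,
        Real.norm_eq_abs, sq_abs, sq_abs, hab]
    · rw [e1, e2, inner_smul_left, inner_smul_right, h.o.vw]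
      simp
    · rw [e1, e2, map_smul, inner_smul_left, inner_smul_right, h.j]
      simp

theorem adm_iffJ {J : V ≃ₗᵢ[ℝ] V} {x y : DD V} (h : Adm PB (QJ J) x y) :
    ∃ e u, Ad J e u ∧ x = mk e 0 ∧ y = mk 0 u := by
  have h1 : x.snd = 0 := congrArg WithLp.snd h.Pe
  have h2 : y.fst = 0 := (congrArg WithLp.fst h.Pu).symm
  have n1 : ‖x.fst‖ = 1 := by
    rw [← sq_eq_sq₀ (norm_nonneg _) zero_le_one]
    have h3 := norm_DD x
    rw [h.ne, h1, norm_zero] at h3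
    linarith
  have n2 : ‖y.snd‖ = 1 := by
    rw [← sq_eq_sq₀ (norm_nonneg _) zero_le_one]
    have h3 := norm_DD y
    rw [h.nu, h2, norm_zero] at h3
    linarith
  obtain ⟨-, h4, h5⟩ := h.circ (3 / 5) (4 / 5) (by norm_num)
  have e1 : ((3 / 5 : ℝ) • x + (4 / 5 : ℝ) • y : DD V).fst = (3 / 5 : ℝ) • x.fst := by
    rw [WithLp.add_fst, WithLp.smul_fst, WithLp.smul_fst, h2, smul_zero, add_zero]
  have e2 : ((3 / 5 : ℝ) • x + (4 / 5 : ℝ) • y : DD V).snd = (4 / 5 : ℝ) • y.snd := by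
    rw [WithLp.add_snd, WithLp.smul_snd, WithLp.smul_snd, h1, smul_zero, zero_add]
  rw [e1, e2, inner_smul_left, inner_smul_right] at h4
  rw [e1, e2, map_smul, inner_smul_left, inner_smul_right] at h5
  simp only [conj_trivial] at h4 h5
  refine ⟨x.fst, y.snd, ⟨⟨n1, n2, by linarith⟩, by linarith⟩, ext_DD rfl ?_, ext_DD ?_ rfl⟩
  · rw [h1, mk_snd]
  · rw [h2, mk_fst]

theorem inPl_ofJ {e u : V} (h : Orth e u) {x : DD V} {s t : ℝ} (hs : x.fst = s • e)
    (ht : x.snd = t • u) : InPl (mk e 0) (mk 0 u) x := by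
  unfold InPl
  have e1 : (inner ℝ (mk e 0) x : ℝ) = s := by
    rw [inner_DD, mk_fst, mk_snd, hs, inner_smul_right, h.vv, inner_zero_left]
    ring
  have e2 : (inner ℝ (mk 0 u) x : ℝ) = t := by
    rw [inner_DD, mk_fst, mk_snd, ht, inner_smul_right, h.ww, inner_zero_left]
    ring
  rw [e1, e2]
  refine ext_DD ?_ ?_
  · rw [WithLp.add_fst, WithLp.smul_fst, WithLp.smul_fst, mk_fst, mk_fst, smul_zero, add_zero, hs]
  · rw [WithLp.add_snd, WithLp.smul_snd, WithLp.smul_snd, mk_snd, mk_snd, smul_zero, zero_add, ht]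

theorem inPl_partsJ {e u : V} {x : DD V} (hx : InPl (mk e 0) (mk 0 u) x) :
    ∃ s t : ℝ, x.fst = s • e ∧ x.snd = t • u := by
  refine ⟨inner ℝ (mk e 0) x, inner ℝ (mk 0 u) x, ?_, ?_⟩
  · conv_lhs => rw [hx]
    rw [WithLp.add_fst, WithLp.smul_fst, WithLp.smul_fst, mk_fst, mk_fst, smul_zero, add_zero]
  · conv_lhs => rw [hx]
    rw [WithLp.add_snd, WithLp.smul_snd, WithLp.smul_snd, mk_snd, mk_snd, smul_zero, zero_add]

theorem QJ_sub {J : V ≃ₗᵢ[ℝ] V} : QJ J ⊆ Sph (DD V) := by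
  rintro x ⟨h1, -⟩
  rw [mem_Sph, ← sq_eq_sq₀ (norm_nonneg _) zero_le_one, norm_DD, h1]
  norm_num

theorem QJ_compact {J : V ≃ₗᵢ[ℝ] V} : IsCompact (QJ J) := by
  have c1 : Continuous fun x : DD V => x.fst := contDiff_fst'.continuous
  have c2 : Continuous fun x : DD V => x.snd := contDiff_snd'.continuous
  have h1 : IsClosed (QJ J) := by
    have e1 : QJ J = {x : DD V | ‖x.fst‖ ^ 2 + ‖x.snd‖ ^ 2 = 1} ∩
      ({x : DD V | inner ℝ x.fst x.snd = (0 : ℝ)} ∩
        {x : DD V | inner ℝ x.fst (J x.snd) = (0 : ℝ)}) := rfl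
    rw [e1]
    exact (isClosed_eq ((c1.norm.pow 2).add (c2.norm.pow 2)) continuous_const).inter
      ((isClosed_eq (c1.inner c2) continuous_const).inter
        (isClosed_eq (c1.inner (J.continuous.comp c2)) continuous_const))
  exact (isCompact_sphere (0 : DD V) 1).of_isClosed_subset h1 QJ_sub

end Vale.Agent.P220.R2.H562.C
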