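import Vale.Agent.P220.R2.H562.C.Main
import Vale.Agent.P220.R2.H562.C.Defs

/-!
# The theorem for the complex Stiefel base
-/

open Set Filter Topology
open scoped ContDiff

namespace Vale.Agent.P220.R2.H562.C

open H57 H180 H562 H562.S

/-- **Unitary symmetry.** -/
theorem main_pairs {V : Type} [NormedAddCommGroup V] [InnerProductSpace ℝ V]
    [FiniteDimensional ℝ V] {n : ℕ} (hn : Module.finrank ℝ V = 2 * n) (h2 : 2 ≤ n)
    {J : V ≃ₗᵢ[ℝ] V} (hJ : ∀ x, J (J x) = -x)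
    {L : Set (WithLp 2 (V × V) × WithLp 2 (V × V))}
    (hL : IsClosedExactLagrangian (4 * n - 3) (OrthPairs J) L)
    (hinv : ∀ g : V ≃ₗᵢ[ℝ] V, (∀ x, g (J x) = J (g x)) → ∀ z ∈ L,
      (WithLp.toLp 2 (g z.1.fst, g z.1.snd), WithLp.toLp 2 (g z.2.fst, g z.2.snd)) ∈ L) :
    HamIsotopicToZero (OrthPairs J) L := by
  obtain ⟨m, rfl⟩ : ∃ m, n = m + 2 := ⟨n - 2, by omega⟩
  have e1 : 4 * (m + 2) - 3 = ((2 * m + 2) + 1) + (2 * m + 2) := by omega
  rw [e1] at hL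
  exact main_J hJ (m := 2 * m + 2) (by omega) (by omega) hL hinv

end Vale.Agent.P220.R2.H562.C
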