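import Vale.Agent.P220.R2.H562.C.Rows

/-!
# The fixed part of an invariant exact Lagrangian over the complex Stiefel base
-/

open Set Filter Topology
open scoped ContDiff

set_option linter.unusedSectionVars false

namespace Vale.Agent.P220.R2.H562.C

open H57 H180 H562 H562.S

variable {V : Type} [NormedAddCommGroup V] [InnerProductSpace ℝ V] [FiniteDimensional ℝ V]

/-- the involution -/
noncomputable def sJ (F : Submodule ℝ V) : DD V →L[ℝ] DD V :=
  LinearMap.toContinuousLinearMap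
    { toFun := fun x => mk (-(F.reflection x.fst)) (F.reflection x.snd)
      map_add' := fun x y => by
        refine ext_DD ?_ ?_
        · simp only [WithLp.add_fst, mk_fst, map_add, neg_add]
        · simp only [WithLp.add_snd, mk_snd, map_add]
      map_smul' := fun c x => by
        refine ext_DD ?_ ?_
        · simp only [WithLp.smul_fst, mk_fst, RingHom.id_apply, map_smul, smul_neg]
        · simp only [WithLp.smul_snd, mk_snd, RingHom.id_apply, map_smul] }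

theorem sJ_fst (F : Submodule ℝ V) (x : DD V) : (sJ F x).fst = -(F.reflection x.fst) := rfl
theorem sJ_snd (F : Submodule ℝ V) (x : DD V) : (sJ F x).snd = F.reflection x.snd := rfl

theorem sJ_sJ (F : Submodule ℝ V) (x : DD V) : sJ F (sJ F x) = x := by
  refine ext_DD ?_ ?_
  · rw [sJ_fst, sJ_fst, map_neg, Submodule.reflection_reflection, neg_neg]
  · rw [sJ_snd, sJ_snd, Submodule.reflection_reflection]

/-- the embedding of the sphere -/
noncomputable def jJ (F : Submodule ℝ V) : V →L[ℝ] DD V :=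
  LinearMap.toContinuousLinearMap
    { toFun := fun x => mk (x - F.starProjection x) (F.starProjection x)
      map_add' := fun x y => by
        refine ext_DD ?_ ?_
        · simp only [WithLp.add_fst, mk_fst, map_add]
          abel
        · simp only [WithLp.add_snd, mk_snd, map_add]
      map_smul' := fun c x => by
        refine ext_DD ?_ ?_
        · simp only [WithLp.smul_fst, mk_fst, RingHom.id_apply, map_smul, smul_sub]
        · simp only [WithLp.smul_snd, mk_snd, RingHom.id_apply, map_smul] }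

theorem jJ_fst (F : Submodule ℝ V) (x : V) : (jJ F x).fst = x - F.starProjection x := rfl
theorem jJ_snd (F : Submodule ℝ V) (x : V) : (jJ F x).snd = F.starProjection x := rfl

/-- the left inverse -/
noncomputable def kJ : DD V →L[ℝ] V :=
  (ContinuousLinearMap.fst ℝ V V + ContinuousLinearMap.snd ℝ V V).comp
      (WithLp.prodContinuousLinearEquiv 2 ℝ V V : DD V →L[ℝ] V × V)

theorem kJ_apply (x : DD V) : kJ x = x.fst + x.snd := rfl

theorem kJ_jJ (F : Submodule ℝ V) (x : V) : kJ (jJ F x) = x := by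
  rw [kJ_apply, jJ_fst, jJ_snd, sub_add_cancel]

theorem jJ_inner (F : Submodule ℝ V) (x y : V) :
    (inner ℝ (jJ F x) (jJ F y) : ℝ) = inner ℝ x y := by
  have hP := isPr_star F
  rw [inner_DD, jJ_fst, jJ_snd, jJ_fst, jJ_snd]
  have h1 : (inner ℝ (F.starProjection x) (F.starProjection y) : ℝ) =
      inner ℝ x (F.starProjection y) := by
    rw [hP.symm, hP.idem]
  rw [inner_sub_left, inner_sub_right, inner_sub_right, h1, hP.symm]
  ring

theorem jJ_norm (F : Submodule ℝ V) (x : V) : ‖jJ F x‖ = ‖x‖ := by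
  rw [← sq_eq_sq₀ (norm_nonneg _) (norm_nonneg _), ← real_inner_self_eq_norm_sq, jJ_inner,
    real_inner_self_eq_norm_sq]

theorem refl_eq_iff {F : Submodule ℝ V} {x : V} : F.reflection x = x ↔ x ∈ F :=
  Submodule.reflection_eq_self_iff x

theorem refl_neg_iff {F : Submodule ℝ V} {x : V} : F.reflection x = -x ↔ x ∈ Fᗮ := by
  constructor
  · intro hx
    have h1 : Fᗮ.reflection x = x := by
      rw [Submodule.reflection_orthogonal_apply, hx, neg_neg]
    exact (Submodule.reflection_eq_self_iff x).1 h1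
  · intro hx
    exact Submodule.reflection_mem_subspace_orthogonalComplement_eq_neg hx

theorem sJ_iff {F : Submodule ℝ V} {x : DD V} : sJ F x = x ↔ x.fst ∈ Fᗮ ∧ x.snd ∈ F := by
  constructor
  · intro h
    have h1 := congrArg WithLp.fst h
    have h2 := congrArg WithLp.snd h
    rw [sJ_fst] at h1
    rw [sJ_snd] at h2
    exact ⟨refl_neg_iff.1 (by rw [← neg_neg (F.reflection x.fst), h1]), refl_eq_iff.1 h2⟩
  · rintro ⟨h1, h2⟩
    refine ext_DD ?_ ?_
    · rw [sJ_fst, refl_neg_iff.2 h1, neg_neg]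
    · rw [sJ_snd, refl_eq_iff.2 h2]

theorem sJ_iff' {F : Submodule ℝ V} {x : DD V} : sJ F x = -x ↔ x.fst ∈ F ∧ x.snd ∈ Fᗮ := by
  constructor
  · intro h
    have h1 := congrArg WithLp.fst h
    have h2 := congrArg WithLp.snd h
    rw [sJ_fst, WithLp.neg_fst] at h1
    rw [sJ_snd, WithLp.neg_snd] at h2
    exact ⟨refl_eq_iff.1 (neg_injective h1), refl_neg_iff.1 h2⟩
  · rintro ⟨h1, h2⟩
    refine ext_DD ?_ ?_
    · rw [sJ_fst, refl_eq_iff.2 h1, WithLp.neg_fst]
    · rw [sJ_snd, refl_neg_iff.2 h2, WithLp.neg_snd]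

theorem sJ_jJ (F : Submodule ℝ V) (x : V) : sJ F (jJ F x) = jJ F x :=
  sJ_iff.2 ⟨F.sub_starProjection_mem_orthogonal x, F.starProjection_apply_mem x⟩

theorem jJ_kJ {F : Submodule ℝ V} {x : DD V} (h : sJ F x = x) : jJ F (kJ x) = x := by
  obtain ⟨h1, h2⟩ := sJ_iff.1 h
  have h3 : F.starProjection (kJ x) = x.snd := by
    rw [kJ_apply, map_add, star_orth F h1, zero_add]
    exact Submodule.starProjection_eq_self_iff.2 h2
  refine ext_DD ?_ ?_
  · rw [jJ_fst, h3, kJ_apply, add_sub_cancel_right]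
  · rw [jJ_snd, h3]

/-- the fixed part -/
def HJ (F : Submodule ℝ V) (L : Set (DD V × DD V)) : Set (V × V) :=
  {z | (jJ F z.1, jJ F z.2) ∈ L}

/-- the first normal vector -/
noncomputable def nu1 (q : DD V) : DD V := mk q.snd q.fst
/-- the second normal vector -/
noncomputable def nu2 (J : V ≃ₗᵢ[ℝ] V) (q : DD V) : DD V := mk (J q.snd) (-J q.fst)

variable {J : V ≃ₗᵢ[ℝ] V} (hJ : ∀ x, J (J x) = -x)

include hJ

theorem tanJ {q v : DD V} (hv : v ∈ Tan (QJ J) q) : inner ℝ q v = (0 : ℝ) ∧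
    inner ℝ (nu1 q) v = (0 : ℝ) ∧ inner ℝ (nu2 J q) v = (0 : ℝ) := by
  obtain ⟨h1, h2, h3⟩ := row_tan hv
  refine ⟨h1, ?_, ?_⟩
  · rw [inner_DD]
    change (inner ℝ q.snd v.fst + inner ℝ q.fst v.snd : ℝ) = 0
    rw [real_inner_comm]
    linarith
  · rw [inner_DD]
    change (inner ℝ (J q.snd) v.fst + inner ℝ (-J q.fst) v.snd : ℝ) = 0
    rw [inner_neg_left, J_skew hJ q.fst v.snd, real_inner_comm]
    linarith

theorem tan_LJ {L : Set (DD V × DD V)} (hsub : L ⊆ Cot (QJ J)) {z v : DD V × DD V}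
    (hv : v ∈ Tan L z) : (inner ℝ z.1 v.1 = (0 : ℝ) ∧ inner ℝ (nu1 z.1) v.1 = (0 : ℝ) ∧
      inner ℝ (nu2 J z.1) v.1 = (0 : ℝ)) ∧
      (v.1 = 0 → inner ℝ z.1 v.2 = (0 : ℝ) ∧ inner ℝ (nu1 z.1) v.2 = (0 : ℝ) ∧
      inner ℝ (nu2 J z.1) v.2 = (0 : ℝ)) := by
  obtain ⟨c, hc, hcS, h0, hdc⟩ := hv
  have h5 : HasDerivAt c v 0 := by
    rw [← hdc]
    exact (hc.differentiable (by simp) 0).hasDerivAt
  have h6 : HasDerivAt (fun t => (c t).1) v.1 0 :=
    (hasFDerivAt_fst (𝕜 := ℝ) (p := c 0)).comp_hasDerivAt (0 : ℝ) h5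
  have h7 : HasDerivAt (fun t => (c t).2) v.2 0 :=
    (hasFDerivAt_snd (𝕜 := ℝ) (p := c 0)).comp_hasDerivAt (0 : ℝ) h5
  have h8 : v.1 ∈ Tan (QJ J) z.1 := by
    refine ⟨fun t => (c t).1, hc.fst, fun t => (hsub (hcS t)).1, ?_, h6.deriv⟩
    beta_reduce
    rw [h0]
  refine ⟨tanJ hJ h8, fun hv1 => ?_⟩
  -- linear maps that give the normal vectors
  let A1 : DD V →L[ℝ] DD V := LinearMap.toContinuousLinearMap
    { toFun := nu1
      map_add' := fun x y => rfl
      map_smul' := fun c x => rfl }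
  let A2 : DD V →L[ℝ] DD V := LinearMap.toContinuousLinearMap
    { toFun := nu2 J
      map_add' := fun x y => by
        refine ext_DD ?_ ?_
        · change J (x + y).snd = J x.snd + J y.snd
          rw [WithLp.add_snd, map_add]
        · change -J (x + y).fst = -J x.fst + -J y.fst
          rw [WithLp.add_fst, map_add, neg_add]
      map_smul' := fun c x => by
        refine ext_DD ?_ ?_
        · change J (c • x).snd = c • J x.snd
          rw [WithLp.smul_snd, map_smul]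
        · change -J (c • x).fst = c • -J x.fst
          rw [WithLp.smul_fst, map_smul, smul_neg] }
  have hmain : ∀ A : DD V →L[ℝ] DD V, (∀ q w : DD V, w ∈ Tan (QJ J) q →
      (inner ℝ (A q) w : ℝ) = 0) → (inner ℝ (A z.1) v.2 : ℝ) = 0 := by
    intro A hA
    have g1 : HasDerivAt (fun t => A (c t).1) (A v.1) 0 := A.hasFDerivAt.comp_hasDerivAt (0 : ℝ) h6
    have g2 := g1.inner ℝ h7
    have g3 : (fun t => inner ℝ (A (c t).1) (c t).2 : ℝ → ℝ) = fun _ => 0 := by
      funext t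
      exact hA _ _ (hsub (hcS t)).2
    rw [g3, h0, hv1, map_zero, inner_zero_left, add_zero] at g2
    exact g2.unique (hasDerivAt_const _ _)
  exact ⟨hmain (ContinuousLinearMap.id ℝ _) fun q w hw => (tanJ hJ hw).1,
    hmain A1 fun q w hw => (tanJ hJ hw).2.1, hmain A2 fun q w hw => (tanJ hJ hw).2.2⟩

omit hJ in
theorem finrank_WJ (F : Submodule ℝ V) (W : Submodule ℝ (DD V))
    (h : ∀ x ∈ W, (x.fst ∈ Fᗮ ∧ x.snd ∈ F) ) : Module.finrank ℝ W ≤ Module.finrank ℝ V := by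
  refine LinearMap.finrank_le_finrank_of_injective
    (f := ((kJ : DD V →L[ℝ] V) : DD V →ₗ[ℝ] V) ∘ₗ W.subtype) ?_
  rintro ⟨x, hx⟩ ⟨y, hy⟩ hxy
  have h1 : x.fst + x.snd = y.fst + y.snd := hxy
  have h2 : jJ F (kJ x) = x := jJ_kJ (sJ_iff.2 (h x hx))
  have h3 : jJ F (kJ y) = y := jJ_kJ (sJ_iff.2 (h y hy))
  refine Subtype.ext ?_
  change x = y
  rw [← h2, ← h3, kJ_apply, kJ_apply, h1]

/-- the dimension of the fixed part -/
theorem half_dimJ {m : ℕ} (hm : Module.finrank ℝ V = m + 2) {u : V} (hu : ‖u‖ = 1)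
    {L UL : Set (DD V × DD V)} {ρ : DD V × DD V → DD V × DD V} (hL : IsRet L UL ρ)
    (hd : ∀ z ∈ L, Module.finrank ℝ (Tn ρ z) = (m + 1) + m)
    (hsub : L ⊆ Cot (QJ J)) {f : DD V × DD V → ℝ}
    (hf : ContDiff ℝ ∞ f) (hex : ∀ z ∈ L, ∀ v ∈ Tn ρ z, fderiv ℝ f z v = inner ℝ z.2 v.1)
    (hRL : ∀ z ∈ L, (sJ (Pl u (J u)) z.1, sJ (Pl u (J u)) z.2) ∈ L) {z : DD V × DD V}
    (hz : z ∈ L) (hRz : (sJ (Pl u (J u)) z.1, sJ (Pl u (J u)) z.2) = z)
    {T : Submodule ℝ (DD V × DD V)}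
    (hT : ∀ v, v ∈ T ↔ v ∈ Tn ρ z ∧ (sJ (Pl u (J u)) v.1, sJ (Pl u (J u)) v.2) = v) :
    Module.finrank ℝ T = m + 1 := by
  set F : Submodule ℝ V := Pl u (J u) with hF
  have hz1 : sJ F z.1 = z.1 := congrArg Prod.fst hRz
  obtain ⟨m1, m2⟩ := sJ_iff.1 hz1
  obtain ⟨n1, n2, n3⟩ := (hsub hz).1
  set W : Submodule ℝ (DD V) := LinearMap.ker ((sJ F : DD V →ₗ[ℝ] DD V) - LinearMap.id) with hW
  set W' : Submodule ℝ (DD V) := LinearMap.ker ((sJ F : DD V →ₗ[ℝ] DD V) + LinearMap.id) with hW'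
  have mW : ∀ x, x ∈ W ↔ sJ F x = x := fun x => by
    rw [hW, LinearMap.mem_ker]
    exact sub_eq_zero
  have mW' : ∀ x, x ∈ W' ↔ sJ F x = -x := fun x => by
    rw [hW', LinearMap.mem_ker]
    exact add_eq_zero_iff_eq_neg
  have dW : Module.finrank ℝ W ≤ m + 2 := by
    rw [← hm]
    exact finrank_WJ F W fun x hx => sJ_iff.1 ((mW x).1 hx)
  have dW' : Module.finrank ℝ W' ≤ m + 2 := by
    rw [← hm]
    refine finrank_WJ Fᗮ W' fun x hx => ?_
    rw [Submodule.orthogonal_orthogonal]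
    exact sJ_iff'.1 ((mW' x).1 hx)
  have hq1 : ‖z.1‖ = 1 := mem_Sph.1 (QJ_sub (hsub hz).1)
  have hq0 : z.1 ≠ 0 := fun h => by
    rw [h, norm_zero] at hq1
    exact zero_ne_one hq1
  have hnu : Orth (nu1 z.1) (nu2 J z.1) := by
    refine ⟨?_, ?_, ?_⟩
    · rw [← sq_eq_sq₀ (norm_nonneg _) zero_le_one, norm_DD]
      change ‖z.1.snd‖ ^ 2 + ‖z.1.fst‖ ^ 2 = _
      linarith
    · rw [← sq_eq_sq₀ (norm_nonneg _) zero_le_one, norm_DD]
      change ‖J z.1.snd‖ ^ 2 + ‖-J z.1.fst‖ ^ 2 = _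
      rw [norm_neg, J.norm_map, J.norm_map]
      linarith
    · rw [inner_DD]
      change (inner ℝ z.1.snd (J z.1.snd) + inner ℝ z.1.fst (-J z.1.fst) : ℝ) = 0
      rw [inner_neg_right, J_self hJ, J_self hJ]
      ring
  have hsnu1 : sJ F (nu1 z.1) = -nu1 z.1 := sJ_iff'.2 ⟨m2, m1⟩
  have hsnu2 : sJ F (nu2 J z.1) = -nu2 J z.1 :=
    sJ_iff'.2 ⟨J_Pl hJ m2, Submodule.neg_mem _ (J_Pl_orth hJ m1)⟩
  refine row_DN (T := Tn ρ z) (R := sJ F) (W := W) (W' := W') (N := ℝ ∙ z.1)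
    (N' := Pl (nu1 z.1) (nu2 J z.1)) (k := m + 1) (k' := m)
    (fun v hv w hw => isotropic hL hf hex hz hv hw) (sJ_sJ F) ?_ mW mW' ?_ ?_ ?_ ?_ (hd z hz)
    ?_ ?_ ?_ ?_ hT
  · intro v hv
    rw [← hL.mem_Tan hz] at hv ⊢
    obtain ⟨c, hc, hcS, h0, hdc⟩ := hv
    have h1 : HasDerivAt c v 0 := by
      rw [← hdc]
      exact (hc.differentiable (by simp) 0).hasDerivAt
    refine ⟨fun t => (sJ F).prodMap (sJ F) (c t), ((sJ F).prodMap (sJ F)).contDiff.comp hc,
      fun t => hRL _ (hcS t), ?_, ?_⟩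
    · beta_reduce
      rw [h0]
      exact hRz
    · exact (((sJ F).prodMap (sJ F)).hasFDerivAt.comp_hasDerivAt 0 h1).deriv
  · rw [Submodule.span_singleton_le_iff_mem]
    exact (mW _).2 hz1
  · unfold Pl
    rw [Submodule.span_le]
    rintro x (rfl | rfl)
    · exact (mW' _).2 hsnu1
    · exact (mW' _).2 hsnu2
  · rw [finrank_span_singleton hq0]
    omega
  · rw [hnu.finrank_Pl]
    omega
  · intro v hv x hx
    obtain ⟨a, rfl⟩ := Submodule.mem_span_singleton.1 hx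
    rw [inner_smul_left, (tan_LJ hJ hsub ((hL.mem_Tan hz).2 hv)).1.1, mul_zero]
  · intro v hv x hx
    obtain ⟨a, b, rfl⟩ := Submodule.mem_span_pair.1 hx
    obtain ⟨-, h1, h2⟩ := (tan_LJ hJ hsub ((hL.mem_Tan hz).2 hv)).1
    rw [inner_add_left, inner_smul_left, inner_smul_left, h1, h2, mul_zero, mul_zero, add_zero]
  · intro x hx hv
    obtain ⟨a, rfl⟩ := Submodule.mem_span_singleton.1 hx
    have h1 := ((tan_LJ hJ hsub ((hL.mem_Tan hz).2 hv)).2 rfl).1
    change (inner ℝ z.1 (a • z.1) : ℝ) = 0 at h1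
    rw [inner_smul_right, real_inner_self_eq_norm_sq, hq1] at h1
    have h2 : a = 0 := by linarith
    rw [h2, zero_smul]
  · intro x hx hv
    obtain ⟨-, h1, h2⟩ := (tan_LJ hJ hsub ((hL.mem_Tan hz).2 hv)).2 rfl
    change (inner ℝ (nu1 z.1) x : ℝ) = 0 at h1
    change (inner ℝ (nu2 J z.1) x : ℝ) = 0 at h2
    have h3 := hnu.mem_Pl.1 hx
    rw [h3, h1, h2, zero_smul, zero_smul, add_zero]

/-- The fixed part is a closed exact Lagrangian in the cotangent bundle of a sphere. -/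
theorem half_closedJ {m : ℕ} (hm : Module.finrank ℝ V = m + 2) {u : V} (hu : ‖u‖ = 1)
    {L : Set (DD V × DD V)} (hL : IsClosedExactLagrangian ((m + 1) + m) (QJ J) L)
    (hRL : ∀ z ∈ L, (sJ (Pl u (J u)) z.1, sJ (Pl u (J u)) z.2) ∈ L)
    (hne : (HJ (Pl u (J u)) L).Nonempty) :
    IsClosedExactLagrangian (m + 1) (Sph V) (HJ (Pl u (J u)) L) := by
  set F : Submodule ℝ V := Pl u (J u) with hF
  obtain ⟨U, ρ, hρ, hd⟩ := exists_ret hL.mfd hL.compact
  obtain ⟨f, hf, hex⟩ := hL.exact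
  set R : (DD V × DD V) →L[ℝ] (DD V × DD V) := (sJ F).prodMap (sJ F) with hR
  set ι : (V × V) →L[ℝ] (DD V × DD V) := (jJ F).prodMap (jJ F) with hι
  set κ : (DD V × DD V) →L[ℝ] (V × V) := kJ.prodMap kJ with hκ
  have hRR : ∀ v, R (R v) = v := fun v => Prod.ext (sJ_sJ F _) (sJ_sJ F _)
  have hSm : IsSubmanifold (m + 1) {z | z ∈ L ∧ R z = z} :=
    fix_submanifold hρ hRR hRL fun z hz hRz T hT =>
      half_dimJ hJ hm hu hρ hd hL.sub hf (fun z hz v hv => hex z hz v ((hρ.mem_Tan hz).2 hv)) hRL hz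
        hRz hT
  have cS : IsCompact {z | z ∈ L ∧ R z = z} :=
    hL.compact.inter_right (isClosed_eq R.continuous continuous_id)
  have hsub : ∀ x ∈ {z | z ∈ L ∧ R z = z}, ι (κ x) = x := by
    rintro x ⟨-, hx⟩
    exact Prod.ext (jJ_kJ (congrArg Prod.fst hx)) (jJ_kJ (congrArg Prod.snd hx))
  have hpre : ι ⁻¹' {z | z ∈ L ∧ R z = z} = HJ F L := by
    ext z
    constructor
    · rintro ⟨h1, -⟩
      exact h1
    · intro h1
      exact ⟨h1, Prod.ext (sJ_jJ F _) (sJ_jJ F _)⟩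
  have hκι : ∀ x, κ (ι x) = x := fun x => Prod.ext (kJ_jJ F _) (kJ_jJ F _)
  have h1 := row_T ι κ hκι hSm cS hsub
  rw [hpre] at h1
  refine ⟨h1, ?_, hne, ?_, fun z => f (ι z), hf.comp ι.contDiff, ?_⟩
  · have h2 : HJ F L = κ '' {z | z ∈ L ∧ R z = z} := by
      rw [← hpre]
      ext z
      constructor
      · intro hz
        exact ⟨ι z, hz, hκι z⟩
      · rintro ⟨x, hx, rfl⟩
        change ι (κ x) ∈ {z | z ∈ L ∧ R z = z}
        rw [hsub x hx]
        exact hx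
    rw [h2]
    exact cS.image κ.continuous
  · intro z hz
    have h2 := hL.sub hz
    rw [cot_sph]
    constructor
    · rw [← jJ_norm F]
      exact mem_Sph.1 (QJ_sub h2.1)
    · rw [← jJ_inner F]
      exact (tanJ hJ h2.2).1
  · rintro z hz v ⟨c, hc, hcS, h0, hdc⟩
    have h2 : HasDerivAt c v 0 := by
      rw [← hdc]
      exact (hc.differentiable (by simp) 0).hasDerivAt
    have h3 : ι v ∈ Tan L (ι z) := by
      refine ⟨fun t => ι (c t), ι.contDiff.comp hc, fun t => hcS t, ?_, ?_⟩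
      · beta_reduce
        rw [h0]
      · exact (ι.hasFDerivAt.comp_hasDerivAt 0 h2).deriv
    have h4 := hex (ι z) hz (ι v) h3
    have h5 : HasFDerivAt (fun z => f (ι z)) ((fderiv ℝ f (ι z)).comp ι) z :=
      (hf.differentiable (by simp) (ι z)).hasFDerivAt.comp z ι.hasFDerivAt
    rw [h5.fderiv]
    change fderiv ℝ f (ι z) (ι v) = _
    rw [h4]
    exact jJ_inner F _ _

end Vale.Agent.P220.R2.H562.C
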