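import Vale.Agent.P220.R2.H562.C.Half
import Vale.Agent.P220.R2.H562.C.Arc

/-!
# Exact Lagrangians over the complex Stiefel base with unitary symmetry
-/

open Set Filter Topology
open scoped ContDiff

set_option linter.unusedSectionVars false

namespace Vale.Agent.P220.R2.H562.C

open H57 H180 H562 H562.S

variable {V : Type} [NormedAddCommGroup V] [InnerProductSpace ℝ V] [FiniteDimensional ℝ V]

/-- invariance under the unitary group -/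
def UInv (J : V ≃ₗᵢ[ℝ] V) (L : Set (DD V × DD V)) : Prop :=
  ∀ g : V ≃ₗᵢ[ℝ] V, (∀ x, g (J x) = J (g x)) → ∀ z ∈ L, (dg g z.1, dg g z.2) ∈ L

/-- the point `z` lies over the plane of `e` and `u` -/
def Pts (e u : V) (z : DD V × DD V) : Prop :=
  (∃ s t : ℝ, z.1.fst = s • e ∧ z.2.fst = t • e) ∧ ∃ s t : ℝ, z.1.snd = s • u ∧ z.2.snd = t • u

theorem Pts.inPl {e u : V} (h : Orth e u) {z : DD V × DD V} (hz : Pts e u z) :
    InPl (mk e 0) (mk 0 u) z.1 ∧ InPl (mk e 0) (mk 0 u) z.2 := by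
  obtain ⟨⟨s, t, h1, h2⟩, s', t', h3, h4⟩ := hz
  exact ⟨inPl_ofJ h h1 h3, inPl_ofJ h h2 h4⟩

theorem pts_of {e u : V} {z : DD V × DD V} (h1 : InPl (mk e 0) (mk 0 u) z.1)
    (h2 : InPl (mk e 0) (mk 0 u) z.2) : Pts e u z := by
  obtain ⟨s, s', a1, a2⟩ := inPl_partsJ h1
  obtain ⟨t, t', b1, b2⟩ := inPl_partsJ h2
  exact ⟨⟨s, t, a1, b1⟩, s', t', a2, b2⟩

theorem Pts.map {e u e' u' : V} {g : V ≃ₗᵢ[ℝ] V} (he : g e' = e) (hu : g u' = u)
    {z : DD V × DD V} (hz : Pts e' u' z) : Pts e u (dg g z.1, dg g z.2) := by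
  obtain ⟨⟨s, t, h1, h2⟩, s', t', h3, h4⟩ := hz
  refine ⟨⟨s, t, ?_, ?_⟩, s', t', ?_, ?_⟩
  · change (dg g z.1).fst = s • e
    rw [dg_fst, h1, map_smul, he]
  · change (dg g z.2).fst = t • e
    rw [dg_fst, h2, map_smul, he]
  · change (dg g z.1).snd = s' • u
    rw [dg_snd, h3, map_smul, hu]
  · change (dg g z.2).snd = t' • u
    rw [dg_snd, h4, map_smul, hu]

/-- the diagonal one-parameter group -/
theorem onePar_dgC {φ : ℝ → (V ≃ₗᵢ[ℝ] V)} {A : V → V} (hp : IsOnePar φ A) :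
    IsOnePar (fun t => dg (φ t)) (fun x : DD V => mk (A x.fst) (A x.snd)) := by
  refine ⟨fun s t x => ext_DD (hp.add s t x.fst) (hp.add s t x.snd), fun x => ?_⟩
  have h3 := (hp.deriv x.fst).prodMk (hp.deriv x.snd)
  exact ((WithLp.prodContinuousLinearEquiv 2 ℝ V V).symm :
    V × V →L[ℝ] DD V).hasFDerivAt.comp_hasDerivAt (0 : ℝ) h3

theorem inner_XF (p v w x : V) : (inner ℝ p (XF v w x) : ℝ) =
    inner ℝ v x * inner ℝ w p - inner ℝ w x * inner ℝ v p := by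
  unfold XF
  rw [inner_sub_right, inner_smul_right, inner_smul_right, real_inner_comm w p,
    real_inner_comm v p]

theorem jJ_add {F : Submodule ℝ V} {a b : V} (ha : a ∈ Fᗮ) (hb : b ∈ F) :
    jJ F (a + b) = mk a b := by
  have h1 : F.starProjection (a + b) = b := by
    rw [map_add, star_orth F ha, zero_add]
    exact Submodule.starProjection_eq_self_iff.2 hb
  refine ext_DD ?_ ?_
  · rw [jJ_fst, h1, mk_fst, add_sub_cancel_right]
  · rw [jJ_snd, h1, mk_snd]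

theorem wf_jJ (F : Submodule ℝ V) (z : V × V) :
    wf PB (jJ F z.1, jJ F z.2) = wf F.starProjection z := by
  have h1 : ∀ x y : V, (inner ℝ (PB (jJ F x)) (PB (jJ F y)) : ℝ) =
      inner ℝ (F.starProjection x) (F.starProjection y) := by
    intro x y
    rw [inner_DD, PB_fst, PB_snd, PB_fst, PB_snd, jJ_snd, jJ_snd, inner_zero_left, zero_add]
  have h2 : ∀ x : V, ‖PB (jJ F x)‖ = ‖F.starProjection x‖ := by
    intro x
    rw [← sq_eq_sq₀ (norm_nonneg _) (norm_nonneg _), ← real_inner_self_eq_norm_sq, h1,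
      real_inner_self_eq_norm_sq]
  unfold wf
  simp only [h1, h2, jJ_norm]

theorem wf_dg (g : V ≃ₗᵢ[ℝ] V) (z : DD V × DD V) : wf PB (dg g z.1, dg g z.2) = wf PB z := by
  have h1 : ‖PB (dg g z.1)‖ = ‖PB z.1‖ := by rw [PB_dg, LinearIsometryEquiv.norm_map]
  have h2 : ‖PB (dg g z.2)‖ = ‖PB z.2‖ := by rw [PB_dg, LinearIsometryEquiv.norm_map]
  have h3 : ‖dg g z.2‖ = ‖z.2‖ := LinearIsometryEquiv.norm_map _ _
  have h4 : (inner ℝ (PB (dg g z.1)) (PB (dg g z.2)) : ℝ) = inner ℝ (PB z.1) (PB z.2) := by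
    rw [PB_dg, PB_dg, LinearIsometryEquiv.inner_map_map]
  unfold wf
  rw [h1, h2, h3, h4]

section

variable {J : V ≃ₗᵢ[ℝ] V} (hJ : ∀ x, J (J x) = -x)

include hJ

theorem exists_planeJ {n : ℕ} {L : Set (DD V × DD V)}
    (hL : IsClosedExactLagrangian n (QJ J) L) (hinv : UInv J L) (h4 : 4 ≤ Module.finrank ℝ V)
    {z : DD V × DD V} (hz : z ∈ L) : ∃ e u : V, Ad J e u ∧ Pts e u z := by
  have hzC := hL.sub hz
  obtain ⟨n1, n2, n3⟩ := hzC.1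
  obtain ⟨t1, t2, t3⟩ := row_tan hzC.2
  obtain ⟨e, u, he, hu, heu, heJ, h5, h6⟩ := row_MJ hJ h4 n1 n2 n3 t1 t2 t3 (by
    intro v w hv hw hvw hvJ
    have ho := Orth4_J hv hw (hJ v) (hJ w) hvw (by rw [J_skew hJ, hvJ, neg_zero])
    have h7 := (onePar_dgC ho.onePar).moment hL (fun t z hz => hinv _
      (fun x => rtE_JJ ho (hJ v) (hJ w) t x) z hz) hz
    rw [inner_DD, mk_fst, mk_snd, inner_add_right, inner_add_right, inner_XF, inner_XF, inner_XF,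
      inner_XF] at h7
    unfold MM
    linarith) (by
    intro v hv
    have ho := J_orth hJ hv
    have h7 := (onePar_dgC (onePar_rt ho)).moment hL (fun t z hz => hinv _
      (fun x => rtE_J hv (hJ v) t x) z hz) hz
    rw [inner_DD, mk_fst, mk_snd, inner_XF, inner_XF] at h7
    unfold MM
    linarith)
  exact ⟨e, u, ⟨⟨he, hu, heu⟩, heJ⟩, h5, h6⟩

theorem exists_plJ (h4 : 4 ≤ Module.finrank ℝ V) {x : DD V} (hx : x ∈ QJ J) :
    ∃ e u : V, Ad J e u ∧ InPl (mk e 0) (mk 0 u) x := by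
  obtain ⟨n1, n2, n3⟩ := hx
  obtain ⟨e, u, he, hu, heu, heJ, ⟨s, -, h5, -⟩, t, -, h6, -⟩ := row_MJ hJ h4 n1 n2 n3
    (p := (0 : V)) (r := (0 : V)) (by simp) (by simp) (by simp) (by
    intro v w _ _ _ _
    unfold MM
    simp) (by
    intro v _
    unfold MM
    simp)
  exact ⟨e, u, ⟨⟨he, hu, heu⟩, heJ⟩, inPl_ofJ ⟨he, hu, heu⟩ h5 h6⟩

theorem ad_move {e u e' u' : V} (h : Ad J e u) (h' : Ad J e' u') :
    ∃ g : V ≃ₗᵢ[ℝ] V, (∀ x, g (J x) = J (g x)) ∧ g e' = e ∧ g u' = u :=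
  row_U hJ h.o.v1 h.o.w1 h.o.vw h.j h'.o.v1 h'.o.w1 h'.o.vw h'.j

theorem ad_of {u₀ e u : V} (he : ‖e‖ = 1) (hu : ‖u‖ = 1) (heF : e ∈ (Pl u₀ (J u₀))ᗮ)
    (huF : u ∈ Pl u₀ (J u₀)) : Ad J e u := by
  have h1 := Submodule.inner_left_of_mem_orthogonal huF heF
  have h2 := Submodule.inner_left_of_mem_orthogonal (J_Pl hJ huF) heF
  exact ⟨⟨he, hu, h1⟩, h2⟩

/-- the involution preserves `L` -/
theorem inv_sJ {n : ℕ} {L : Set (DD V × DD V)}
    (hL : IsClosedExactLagrangian n (QJ J) L) (hinv : UInv J L) (h4 : 4 ≤ Module.finrank ℝ V)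
    {u : V} (hu : ‖u‖ = 1) {z : DD V × DD V} (hz : z ∈ L) :
    (sJ (Pl u (J u)) z.1, sJ (Pl u (J u)) z.2) ∈ L := by
  obtain ⟨e', u', h', ⟨s, t, h1, h2⟩, s', t', h3, h5⟩ := exists_planeJ hJ hL hinv h4 hz
  set F : Submodule ℝ V := Pl u (J u) with hF
  have hA : Ad J (-(F.reflection e')) (F.reflection u') := by
    refine ⟨⟨?_, ?_, ?_⟩, ?_⟩
    · rw [norm_neg, LinearIsometryEquiv.norm_map]
      exact h'.o.v1
    · rw [LinearIsometryEquiv.norm_map]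
      exact h'.o.w1
    · rw [inner_neg_left, LinearIsometryEquiv.inner_map_map, h'.o.vw, neg_zero]
    · rw [inner_neg_left, ← refl_J hJ hu, LinearIsometryEquiv.inner_map_map, h'.j, neg_zero]
  obtain ⟨g, hg, ge, gu⟩ := ad_move hJ hA h'
  have h6 := hinv g hg z hz
  have e1 : dg g z.1 = sJ F z.1 := by
    refine ext_DD ?_ ?_
    · rw [dg_fst, sJ_fst, h1, map_smul, map_smul, ge, smul_neg]
    · rw [dg_snd, sJ_snd, h3, map_smul, map_smul, gu]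
  have e2 : dg g z.2 = sJ F z.2 := by
    refine ext_DD ?_ ?_
    · rw [dg_fst, sJ_fst, h2, map_smul, map_smul, ge, smul_neg]
    · rw [dg_snd, sJ_snd, h5, map_smul, map_smul, gu]
  rw [e1, e2] at h6
  exact h6

/-- the planes of the fixed part -/
theorem planeF {n : ℕ} {L : Set (DD V × DD V)}
    (hL : IsClosedExactLagrangian n (QJ J) L) (hinv : UInv J L) (h4 : 4 ≤ Module.finrank ℝ V)
    {e₀ u₀ : V} (h₀ : Ad J e₀ u₀) {z : V × V} (hz : z ∈ HJ (Pl u₀ (J u₀)) L) :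
    ∃ e ∈ (Pl u₀ (J u₀))ᗮ, ∃ u ∈ Pl u₀ (J u₀), ‖e‖ = 1 ∧ ‖u‖ = 1 ∧ ∃ s t s' t' : ℝ,
      z.1 = s • e + s' • u ∧ z.2 = t • e + t' • u := by
  set F : Submodule ℝ V := Pl u₀ (J u₀) with hF
  have he₀F : e₀ ∈ Fᗮ := by
    rw [Submodule.mem_orthogonal']
    intro x hx
    obtain ⟨a, b, rfl⟩ := Submodule.mem_span_pair.1 hx
    rw [inner_add_right, inner_smul_right, inner_smul_right, h₀.o.vw, h₀.j]
    ring
  have hu₀F : u₀ ∈ F := Submodule.mem_span_pair.2 ⟨1, 0, by module⟩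
  obtain ⟨e', u', h', ⟨s, t, h1, h2⟩, s', t', h3, h5⟩ := exists_planeJ hJ hL hinv h4 hz
  change (jJ F z.1).fst = s • e' at h1
  change (jJ F z.2).fst = t • e' at h2
  change (jJ F z.1).snd = s' • u' at h3
  change (jJ F z.2).snd = t' • u' at h5
  have q1 : s • e' ∈ Fᗮ := by
    rw [← h1]
    exact F.sub_starProjection_mem_orthogonal _
  have q2 : t • e' ∈ Fᗮ := by
    rw [← h2]
    exact F.sub_starProjection_mem_orthogonal _
  have q3 : s' • u' ∈ F := by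
    rw [← h3]
    exact F.starProjection_apply_mem _
  have q4 : t' • u' ∈ F := by
    rw [← h5]
    exact F.starProjection_apply_mem _
  have hdiv : ∀ (K : Submodule ℝ V) (a : ℝ) (x : V), a ≠ 0 → a • x ∈ K → x ∈ K := by
    intro K a x ha hx
    have h6 := K.smul_mem a⁻¹ hx
    rwa [smul_smul, inv_mul_cancel₀ ha, one_smul] at h6
  obtain ⟨e, heF, he, he1, he2⟩ : ∃ e ∈ Fᗮ, ‖e‖ = 1 ∧ s • e' = s • e ∧ t • e' = t • e := by
    by_cases hs : s = 0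
    · by_cases ht : t = 0
      · exact ⟨e₀, he₀F, h₀.o.v1, by rw [hs, zero_smul, zero_smul], by
          rw [ht, zero_smul, zero_smul]⟩
      · exact ⟨e', hdiv _ t e' ht q2, h'.o.v1, rfl, rfl⟩
    · exact ⟨e', hdiv _ s e' hs q1, h'.o.v1, rfl, rfl⟩
  obtain ⟨u, huF, hu, hu1, hu2⟩ : ∃ u ∈ F, ‖u‖ = 1 ∧ s' • u' = s' • u ∧ t' • u' = t' • u := by
    by_cases hs : s' = 0
    · by_cases ht : t' = 0
      · exact ⟨u₀, hu₀F, h₀.o.w1, by rw [hs, zero_smul, zero_smul], by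
          rw [ht, zero_smul, zero_smul]⟩
      · exact ⟨u', hdiv _ t' u' ht q4, h'.o.w1, rfl, rfl⟩
    · exact ⟨u', hdiv _ s' u' hs q3, h'.o.w1, rfl, rfl⟩
  refine ⟨e, heF, u, huF, he, hu, s, t, s', t', ?_, ?_⟩
  · rw [← he1, ← hu1, ← h1, ← h3, jJ_fst, jJ_snd, sub_add_cancel]
  · rw [← he2, ← hu2, ← h2, ← h5, jJ_fst, jJ_snd, sub_add_cancel]

/-- the fixed part is invariant under isometries that preserve the splitting -/
theorem HJ_inv {n : ℕ} {L : Set (DD V × DD V)}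
    (hL : IsClosedExactLagrangian n (QJ J) L) (hinv : UInv J L) (h4 : 4 ≤ Module.finrank ℝ V)
    {e₀ u₀ : V} (h₀ : Ad J e₀ u₀) {g : V ≃ₗᵢ[ℝ] V}
    (hg1 : ∀ x ∈ (Pl u₀ (J u₀))ᗮ, g x ∈ (Pl u₀ (J u₀))ᗮ)
    (hg2 : ∀ x ∈ Pl u₀ (J u₀), g x ∈ Pl u₀ (J u₀))
    {z : V × V} (hz : z ∈ HJ (Pl u₀ (J u₀)) L) : (g z.1, g z.2) ∈ HJ (Pl u₀ (J u₀)) L := by
  obtain ⟨e, heF, u, huF, he, hu, s, t, s', t', h1, h2⟩ := planeF hJ hL hinv h4 h₀ hz
  set F : Submodule ℝ V := Pl u₀ (J u₀) with hF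
  have hA := ad_of hJ he hu heF huF
  have hB := ad_of hJ ((g.norm_map e).trans he) ((g.norm_map u).trans hu) (hg1 e heF) (hg2 u huF)
  obtain ⟨h, hh, ge, gu⟩ := ad_move hJ hB hA
  have h5 := hinv h hh (jJ F z.1, jJ F z.2) hz
  have key : ∀ a b : ℝ, dg h (jJ F (a • e + b • u)) = jJ F (g (a • e + b • u)) := by
    intro a b
    rw [jJ_add (Fᗮ.smul_mem a heF) (F.smul_mem b huF), map_add, map_smul, map_smul,
      jJ_add (Fᗮ.smul_mem a (hg1 e heF)) (F.smul_mem b (hg2 u huF))]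
    refine ext_DD ?_ ?_
    · rw [dg_fst, mk_fst, mk_fst, map_smul, ge]
    · rw [dg_snd, mk_snd, mk_snd, map_smul, gu]
  change (dg h (jJ F z.1), dg h (jJ F z.2)) ∈ L at h5
  change (jJ F (g z.1), jJ F (g z.2)) ∈ L
  rw [h1, h2, key, key] at h5
  rw [h1, h2]
  exact h5

theorem e_mem {e u : V} (h₀ : Ad J e u) : e ∈ (Pl u (J u))ᗮ := by
  rw [Submodule.mem_orthogonal']
  intro x hx
  obtain ⟨a, b, rfl⟩ := Submodule.mem_span_pair.1 hx
  rw [inner_add_right, inner_smul_right, inner_smul_right, h₀.o.vw, h₀.j]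
  ring

/-- points over the standard plane -/
theorem exists_y {e u : V} (h₀ : Ad J e u) (z : DD V × DD V) (hz : Pts e u z) :
    ∃ y : V × V, InPl e u y.1 ∧ InPl e u y.2 ∧ jJ (Pl u (J u)) y.1 = z.1 ∧
      jJ (Pl u (J u)) y.2 = z.2 := by
  have heF := e_mem hJ h₀
  have huF : u ∈ Pl u (J u) := Submodule.mem_span_pair.2 ⟨1, 0, by module⟩
  obtain ⟨⟨s, t, h1, h2⟩, s', t', h3, h5⟩ := hz
  refine ⟨(s • e + s' • u, t • e + t' • u), InPl.smul h₀.o.v1 h₀.o.w1 h₀.o.vw _ _ rfl,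
    InPl.smul h₀.o.v1 h₀.o.w1 h₀.o.vw _ _ rfl, ?_, ?_⟩
  · change jJ (Pl u (J u)) (s • e + s' • u) = z.1
    rw [jJ_add (Submodule.smul_mem _ s heF) (Submodule.smul_mem _ s' huF)]
    exact ext_DD h1.symm h3.symm
  · change jJ (Pl u (J u)) (t • e + t' • u) = z.2
    rw [jJ_add (Submodule.smul_mem _ t heF) (Submodule.smul_mem _ t' huF)]
    exact ext_DD h2.symm h5.symm

theorem rot1 {n : ℕ} {L : Set (DD V × DD V)}
    (hL : IsClosedExactLagrangian n (QJ J) L) (hinv : UInv J L) (h4 : 4 ≤ Module.finrank ℝ V)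
    {e u : V} (h₀ : Ad J e u) : RotFix (Pl u (J u))ᗮ (HJ (Pl u (J u)) L) := by
  intro g hg _ z hz
  refine HJ_inv hJ hL hinv h4 h₀ (fun x hx => ?_) (fun x hx => ?_) hz
  · rw [hg x hx]
    exact hx
  · have h5 : g x ∈ (Pl u (J u))ᗮᗮ := by
      rw [Submodule.mem_orthogonal]
      intro w hw
      have h6 : (inner ℝ w (g x) : ℝ) = inner ℝ (g w) (g x) := by rw [hg w hw]
      rw [h6, g.inner_map_map]
      exact Submodule.inner_left_of_mem_orthogonal hx hw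
    rwa [Submodule.orthogonal_orthogonal] at h5

theorem rot2 {n : ℕ} {L : Set (DD V × DD V)}
    (hL : IsClosedExactLagrangian n (QJ J) L) (hinv : UInv J L) (h4 : 4 ≤ Module.finrank ℝ V)
    {e u : V} (h₀ : Ad J e u) : RotFix (Pl u (J u)) (HJ (Pl u (J u)) L) := by
  intro g hg _ z hz
  refine HJ_inv hJ hL hinv h4 h₀ (fun x hx => ?_) (fun x hx => ?_) hz
  · rw [Submodule.mem_orthogonal]
    intro w hw
    have h6 : (inner ℝ w (g x) : ℝ) = inner ℝ (g w) (g x) := by rw [hg w hw]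
    rw [h6, g.inner_map_map]
    exact Submodule.inner_right_of_mem_orthogonal hw hx
  · rw [hg x hx]
    exact hx

omit hJ in
theorem dg_symm (g : V ≃ₗᵢ[ℝ] V) (x : DD V) : dg g.symm (dg g x) = x := by
  refine ext_DD ?_ ?_
  · rw [dg_fst, dg_fst, g.symm_apply_apply]
  · rw [dg_snd, dg_snd, g.symm_apply_apply]

/-- the description of the fixed part by the arc -/
def ArcOf (F : Submodule ℝ V) (c : ℝ → ℂ) (K : Set (V × V)) : Prop :=
  ∀ z, z ∈ K ↔ ‖z.1‖ = 1 ∧ inner ℝ z.1 z.2 = (0 : ℝ) ∧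
      (∃ e u, ‖e‖ = 1 ∧ F.starProjection e = 0 ∧ ‖u‖ = 1 ∧ F.starProjection u = u ∧
        InPl e u z.1 ∧ InPl e u z.2) ∧
      ∃ τ ∈ Icc (0 : ℝ) 1, c τ = wf F.starProjection z

theorem char_mp {n : ℕ} {L : Set (DD V × DD V)}
    (hL : IsClosedExactLagrangian n (QJ J) L) (hinv : UInv J L) (h4 : 4 ≤ Module.finrank ℝ V)
    {e u : V} (h₀ : Ad J e u) {c : ℝ → ℂ} (hcz : ArcOf (Pl u (J u)) c (HJ (Pl u (J u)) L))
    {z : DD V × DD V} (hz : z ∈ L) : ‖z.1‖ = 1 ∧ inner ℝ z.1 z.2 = (0 : ℝ) ∧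
      (∃ x x', Adm PB (QJ J) x x' ∧ InPl x x' z.1 ∧ InPl x x' z.2) ∧
      ∃ τ ∈ Icc (0 : ℝ) 1, c τ = wf PB z := by
  have hzC := hL.sub hz
  obtain ⟨e', u', h', hp⟩ := exists_planeJ hJ hL hinv h4 hz
  obtain ⟨p1, p2⟩ := hp.inPl h'.o
  refine ⟨mem_Sph.1 (QJ_sub hzC.1), (tanJ hJ hzC.2).1,
    ⟨mk e' 0, mk 0 u', ad_adm h', p1, p2⟩, ?_⟩
  obtain ⟨g, hg, ge, gu⟩ := ad_move hJ h₀ h'
  obtain ⟨y, -, -, q3, q4⟩ := exists_y hJ h₀ (dg g z.1, dg g z.2) (hp.map ge gu)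
  have hy : y ∈ HJ (Pl u (J u)) L := by
    change (jJ (Pl u (J u)) y.1, jJ (Pl u (J u)) y.2) ∈ L
    rw [q3, q4]
    exact hinv g hg z hz
  obtain ⟨-, -, -, τ, hτ, hcτ⟩ := (hcz y).1 hy
  refine ⟨τ, hτ, ?_⟩
  rw [hcτ, ← wf_jJ, q3, q4]
  exact wf_dg g z

theorem char_mpr {L : Set (DD V × DD V)} (hinv : UInv J L)
    {e u : V} (h₀ : Ad J e u) {c : ℝ → ℂ} (hcz : ArcOf (Pl u (J u)) c (HJ (Pl u (J u)) L))
    {z : DD V × DD V} (h5 : ‖z.1‖ = 1) (h6 : inner ℝ z.1 z.2 = (0 : ℝ)) {x x' : DD V}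
    (hA : Adm PB (QJ J) x x') (p1 : InPl x x' z.1) (p2 : InPl x x' z.2)
    {τ : ℝ} (hτ : τ ∈ Icc (0 : ℝ) 1) (hcτ : c τ = wf PB z) : z ∈ L := by
  have huF : u ∈ Pl u (J u) := Submodule.mem_span_pair.2 ⟨1, 0, by module⟩
  obtain ⟨e', u', h', rfl, rfl⟩ := adm_iffJ hA
  obtain ⟨g, hg, ge, gu⟩ := ad_move hJ h₀ h'
  obtain ⟨y, q1, q2, q3, q4⟩ := exists_y hJ h₀ (dg g z.1, dg g z.2) ((pts_of p1 p2).map ge gu)
  change jJ (Pl u (J u)) y.1 = dg g z.1 at q3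
  change jJ (Pl u (J u)) y.2 = dg g z.2 at q4
  have hy : y ∈ HJ (Pl u (J u)) L := by
    refine (hcz y).2 ⟨?_, ?_, ⟨e, u, h₀.o.v1, star_orth _ (e_mem hJ h₀), h₀.o.w1,
      Submodule.starProjection_eq_self_iff.2 huF, q1, q2⟩, τ, hτ, ?_⟩
    · rw [← jJ_norm (Pl u (J u)), q3, LinearIsometryEquiv.norm_map]
      exact h5
    · rw [← jJ_inner (Pl u (J u)), q3, q4, LinearIsometryEquiv.inner_map_map]
      exact h6
    · rw [hcτ, ← wf_jJ, q3, q4]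
      exact (wf_dg g z).symm
  have h7 : (jJ (Pl u (J u)) y.1, jJ (Pl u (J u)) y.2) ∈ L := hy
  rw [q3, q4] at h7
  have h8 := hinv g.symm (fun x => by
    apply g.injective
    rw [g.apply_symm_apply, hg, g.apply_symm_apply]) (dg g z.1, dg g z.2) h7
  change (dg g.symm (dg g z.1), dg g.symm (dg g z.2)) ∈ L at h8
  rw [dg_symm, dg_symm] at h8
  exact h8

/-- **Main theorem, complex case.** -/
theorem main_J {m : ℕ} (hm : Module.finrank ℝ V = m + 2) (h2m : 2 ≤ m)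
    {L : Set (DD V × DD V)} (hL : IsClosedExactLagrangian ((m + 1) + m) (QJ J) L)
    (hinv : UInv J L) : HamIsotopicToZero (QJ J) L := by
  have h4 : 4 ≤ Module.finrank ℝ V := by omega
  obtain ⟨zs, hzs⟩ := hL.nonempty
  obtain ⟨e, u, h₀, hp₀⟩ := exists_planeJ hJ hL hinv h4 hzs
  have hu := h₀.o.w1
  have hne : (HJ (Pl u (J u)) L).Nonempty := by
    obtain ⟨y, -, -, q1, q2⟩ := exists_y hJ h₀ zs hp₀
    refine ⟨y, ?_⟩
    change (jJ (Pl u (J u)) y.1, jJ (Pl u (J u)) y.2) ∈ L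
    rw [q1, q2]
    exact hzs
  have hH := half_closedJ hJ hm hu hL (fun z hz => inv_sJ hJ hL hinv h4 hu hz) hne
  have hF2 : Module.finrank ℝ (Pl u (J u)) = 2 := (J_orth hJ hu).finrank_Pl
  have hF3 := (Pl u (J u)).finrank_add_finrank_orthogonal
  obtain ⟨c, hc, hcz⟩ := arc_two (n := m + 1) hm (F := Pl u (J u)) (by omega) (by omega) hH
    (rot1 hJ hL hinv h4 h₀) (rot2 hJ hL hinv h4 h₀)
  obtain ⟨UQ, r, hr⟩ := row_ret hJ
  refine ham_of_arcQ isPr_PB hr QJ_compact QJ_sub (fun q hq => ?_) hc fun z => ⟨fun hz => ?_, ?_⟩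
  · obtain ⟨e', u', h', p1⟩ := exists_plJ hJ h4 hq
    exact ⟨mk e' 0, mk 0 u', ad_adm h', p1⟩
  · exact char_mp hJ hL hinv h4 h₀ hcz hz
  · rintro ⟨h5, h6, ⟨x, x', hA, p1, p2⟩, τ, hτ, hcτ⟩
    exact char_mpr hJ hinv h₀ hcz h5 h6 hA p1 p2 hτ hcτ

end

end Vale.Agent.P220.R2.H562.C
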