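import Vale.Agent.P220.R2.H562.C.Base
import Vale.Agent.P220.R2.H795.RowR1_helper795
import Vale.Agent.P220.R2.H114.RowR2_H114
import Vale.Agent.P220.R2.H369.RowMJ_helper369
import Vale.Agent.P220.R2.H941.RowR4
import Vale.Agent.P220.R2.H875.RowR5

/-!
# Rows for the complex Stiefel base
-/

open Set Filter Topology
open scoped ContDiff

namespace Vale.Agent.P220.R2.H562.C

open Vale.Agent.P220.R2.H57

theorem row_ret {V : Type} [NormedAddCommGroup V] [InnerProductSpace ℝ V] [FiniteDimensional ℝ V]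
    {J : V ≃ₗᵢ[ℝ] V} (hJ : ∀ x, J (J x) = -x) :
    ∃ (U : Set (WithLp 2 (V × V))) (r : WithLp 2 (V × V) → WithLp 2 (V × V)),
      IsRet (QJ J) U r :=
  H795.row_ret hJ

theorem row_tan {V : Type} [NormedAddCommGroup V] [InnerProductSpace ℝ V] [FiniteDimensional ℝ V]
    {J : V ≃ₗᵢ[ℝ] V} {q v : WithLp 2 (V × V)} (hv : v ∈ Tan (QJ J) q) :
    (inner ℝ q.fst v.fst + inner ℝ q.snd v.snd : ℝ) = 0 ∧
    (inner ℝ q.fst v.snd + inner ℝ v.fst q.snd : ℝ) = 0 ∧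
    (inner ℝ q.fst (J v.snd) + inner ℝ v.fst (J q.snd) : ℝ) = 0 :=
  H114.row_tan hv

/-- the moment form -/
def MM {V : Type} [NormedAddCommGroup V] [InnerProductSpace ℝ V] (x y p r v w : V) : ℝ :=
  inner ℝ v x * inner ℝ w p - inner ℝ w x * inner ℝ v p +
    (inner ℝ v y * inner ℝ w r - inner ℝ w y * inner ℝ v r)

theorem row_MJ {V : Type} [NormedAddCommGroup V] [InnerProductSpace ℝ V] [FiniteDimensional ℝ V]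
    {J : V ≃ₗᵢ[ℝ] V} (hJ : ∀ x, J (J x) = -x) (h4 : 4 ≤ Module.finrank ℝ V) {x y p r : V}
    (hn : ‖x‖ ^ 2 + ‖y‖ ^ 2 = 1) (h1 : inner ℝ x y = (0 : ℝ)) (h2 : inner ℝ x (J y) = (0 : ℝ))
    (t1 : (inner ℝ x p + inner ℝ y r : ℝ) = 0) (t2 : (inner ℝ x r + inner ℝ p y : ℝ) = 0)
    (t3 : (inner ℝ x (J r) + inner ℝ p (J y) : ℝ) = 0)
    (m1 : ∀ v w : V, ‖v‖ = 1 → ‖w‖ = 1 → inner ℝ v w = (0 : ℝ) → inner ℝ v (J w) = (0 : ℝ) →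
      MM x y p r v w + MM x y p r (J v) (J w) = 0)
    (m2 : ∀ v : V, ‖v‖ = 1 → MM x y p r v (J v) = 0) :
    ∃ e u : V, ‖e‖ = 1 ∧ ‖u‖ = 1 ∧ inner ℝ e u = (0 : ℝ) ∧ inner ℝ e (J u) = (0 : ℝ) ∧
      (∃ s t : ℝ, x = s • e ∧ p = t • e) ∧ ∃ s t : ℝ, y = s • u ∧ r = t • u :=
  H369.row_MJ hJ h4 hn h1 h2 t1 t2 t3 m1 m2

theorem row_U {V : Type} [NormedAddCommGroup V] [InnerProductSpace ℝ V] [FiniteDimensional ℝ V]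
    {J : V ≃ₗᵢ[ℝ] V} (hJ : ∀ x, J (J x) = -x) {e u e' u' : V}
    (he : ‖e‖ = 1) (hu : ‖u‖ = 1) (heu : inner ℝ e u = (0 : ℝ)) (heJ : inner ℝ e (J u) = (0 : ℝ))
    (he' : ‖e'‖ = 1) (hu' : ‖u'‖ = 1) (heu' : inner ℝ e' u' = (0 : ℝ))
    (heJ' : inner ℝ e' (J u') = (0 : ℝ)) :
    ∃ g : V ≃ₗᵢ[ℝ] V, (∀ x, g (J x) = J (g x)) ∧ g e' = e ∧ g u' = u :=
  H941.row_U hJ he hu heu heJ he' hu' heu' heJ'

theorem row_DN {E : Type} [NormedAddCommGroup E] [InnerProductSpace ℝ E] [FiniteDimensional ℝ E]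
    {T : Submodule ℝ (E × E)}
    (hiso : ∀ v ∈ T, ∀ w ∈ T, (inner ℝ v.2 w.1 : ℝ) = inner ℝ w.2 v.1)
    {R : E →L[ℝ] E} (hR : ∀ x, R (R x) = x) (hRT : ∀ v ∈ T, (R v.1, R v.2) ∈ T)
    {W W' N N' : Submodule ℝ E} (hW : ∀ x, x ∈ W ↔ R x = x) (hW' : ∀ x, x ∈ W' ↔ R x = -x)
    (hNW : N ≤ W) (hNW' : N' ≤ W') {k k' : ℕ}
    (hk : Module.finrank ℝ W ≤ k + Module.finrank ℝ N)
    (hk' : Module.finrank ℝ W' ≤ k' + Module.finrank ℝ N')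
    (hT : Module.finrank ℝ T = k + k')
    (h1 : ∀ v ∈ T, ∀ x ∈ N, inner ℝ x v.1 = (0 : ℝ))
    (h2 : ∀ v ∈ T, ∀ x ∈ N', inner ℝ x v.1 = (0 : ℝ))
    (h3 : ∀ x ∈ N, ((0 : E), x) ∈ T → x = 0) (h4 : ∀ x ∈ N', ((0 : E), x) ∈ T → x = 0)
    {T' : Submodule ℝ (E × E)}
    (hT' : ∀ v, v ∈ T' ↔ v ∈ T ∧ (R v.1, R v.2) = v) : Module.finrank ℝ T' = k :=
  H875.row_DN hiso hR hRT hW hW' hNW hNW' hk hk' hT h1 h2 h3 h4 hT'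

end Vale.Agent.P220.R2.H562.C
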